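import Vale.Agent.P092.H828.CL.OneR
import Vale.Agent.P092.CL.LtO2

/-!
P092, TEAM P, track CL over `ℝ` (helper828), row [CL-ZERO-R], concrete letters: `ltO` at `s = 0`
over `ℝ` (`SO(2, n)`, `n ≥ 3`).
-/

set_option linter.all false

open MeasureTheory

namespace Vale.Agent.P092.H828.CLR

open Vale.Agent.P092.CL
open Vale.Agent.P092.SP (GQ)

variable {ι : Type} [Fintype ι] [DecidableEq ι] {J₀ : Matrix ι ι ℝ}

/-- **[CL-ZERO-R] for `SO(2, n)`**, straight types -/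
theorem zeroStmt_ltO (h : OF J₀) {a : ℝ} (ha : a ≠ 0) (μ₁ : Measure ℝ) (μ₂ : Measure (ι → ℝ)) :
    H99.CL.ZeroStmt (ltO h 0 ha μ₁ μ₂) :=
  zeroStmt_SGr (fun _ _ => Iff.rfl) (gqO h ha μ₁ μ₂)

/-- **[CL-ZERO-R] for `SO(2, n)`**, flipped types -/
theorem zeroStmt_ltO' (h : OF J₀) {a : ℝ} (ha : a ≠ 0) (μ₁ : Measure ℝ) (μ₂ : Measure (ι → ℝ)) :
    H99.CL.ZeroStmt' (ltO h 0 ha μ₁ μ₂) :=
  zeroStmt_SGr' (fun _ _ => Iff.rfl) (gqO h ha μ₁ μ₂)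

end Vale.Agent.P092.H828.CLR
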