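import Vale.Agent.P092.H828.CL.PlR
import Vale.Agent.P092.H370.Po4

/-!
P092, TEAM P, track CL, row [CL-ZERO-R] (helper828), part 2: the singular points and lines of a form
over `ℝ` as orthogonal projections: `X`, `Q`, `geo`, `inc_iff`; [0] for them: `straight_SGr`,
`flipped_SGr`.
-/

set_option linter.all false

open scoped InnerProductSpace
open ContinuousLinearMap Set Module Topology

namespace Vale.Agent.P092.H828.CLR

open Vale.Agent.P092.H100.Gr (Gr Fr sp sp_surj sp_quot sp_cont)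
open Vale.Agent.P092.H283.Geo
open Vale.Agent.P092.H702 (Pt Ln)
open Vale.Agent.P092.H616.Syn (Geo)
open Vale.Agent.P092.H232 (Nin)
open Vale.Agent.P092.H370.Po

section points

variable {n : ℕ}

/-- the projection matrix of a subspace of dimension one -/
noncomputable def gp1 (L : Gr ℝ (Fin n) 1) : Matrix (Fin n) (Fin n) ℝ :=
  pr ((Classical.choose (sp_surj L)).1 0)

theorem span_fin_one (v : Fin 1 → Fin n → ℝ) :
    Submodule.span ℝ (range v) = Submodule.span ℝ {v 0} := by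
  congr 1
  ext x
  constructor
  · rintro ⟨i, rfl⟩
    rw [Subsingleton.elim i 0]
    rfl
  · intro hx
    exact ⟨0, hx.symm⟩

theorem isPr_gp1 (L : Gr ℝ (Fin n) 1) : IsPr L.1 (gp1 L) := by
  have h := isPr_pr ((Classical.choose (sp_surj L)).2.ne_zero 0)
  have e : Submodule.span ℝ (range (Classical.choose (sp_surj L)).1) = L.1 :=
    congrArg Subtype.val (Classical.choose_spec (sp_surj L))
  rw [span_fin_one] at e
  rw [e] at h
  exact h

theorem pt_gp1 (L : Gr ℝ (Fin n) 1) : Pt (gp1 L) :=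
  pt_pr ((Classical.choose (sp_surj L)).2.ne_zero 0)

theorem gp1_sp (v : Fr ℝ (Fin n) 1) : gp1 (sp v) = pr (v.1 0) := by
  refine (isPr_gp1 (sp v)).unique ?_
  have h := isPr_pr (v.2.ne_zero 0)
  rw [← span_fin_one] at h
  exact h

theorem gp1_cont : Continuous (gp1 : Gr ℝ (Fin n) 1 → Matrix (Fin n) (Fin n) ℝ) := by
  rw [(sp_quot (k := ℝ) (ι := Fin n) (j := 1)).continuous_iff]
  have : (gp1 ∘ sp) = fun v : Fr ℝ (Fin n) 1 => pr (v.1 0) := by
    funext v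
    exact gp1_sp v
  rw [this]
  have hv : Continuous fun v : Fr ℝ (Fin n) 1 => v.1 := H100.Gr.fr_val_cont
  exact pr_cont ((continuous_apply 0).comp hv) fun v => v.2.ne_zero 0

theorem gp1_inj : Function.Injective (gp1 : Gr ℝ (Fin n) 1 → Matrix (Fin n) (Fin n) ℝ) := by
  intro x y h
  apply Subtype.ext
  ext v
  rw [(isPr_gp1 x).mem_iff, (isPr_gp1 y).mem_iff, h]

/-- incidence -/
theorem gp_mul_gp1 (x : Gr ℝ (Fin n) 1) (L : Gr ℝ (Fin n) 2) :
    gp L * gp1 x = gp1 x ↔ x.1 ≤ L.1 := by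
  constructor
  · intro h v hv
    have hv' : Matrix.mulVec (gp1 x) v = v := (isPr_gp1 x).fix v hv
    rw [(isPr_gp L).mem_iff]
    conv_lhs => rw [← hv']
    rw [Matrix.mulVec_mulVec, h, hv']
  · intro h
    exact mul_eq_of (isPr_gp L) fun v => h ((isPr_gp1 x).mem v)

end points

section reindex

variable {ι : Type} [Fintype ι] [DecidableEq ι] {n j : ℕ}

/-- renumbering the coordinates -/
noncomputable def le (e : ι ≃ Fin n) : (ι → ℝ) ≃ₗ[ℝ] (Fin n → ℝ) :=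
  LinearEquiv.funCongrLeft ℝ ℝ e.symm

/-- renumbering of frames -/
noncomputable def frE (e : ι ≃ Fin n) (v : Fr ℝ ι j) : Fr ℝ (Fin n) j :=
  ⟨fun b => le e (v.1 b), v.2.map' (le e).toLinearMap (LinearEquiv.ker _)⟩

/-- renumbering of subspaces -/
noncomputable def grE (e : ι ≃ Fin n) (L : Gr ℝ ι j) : Gr ℝ (Fin n) j :=
  ⟨L.1.map (le e).toLinearMap, by
    rw [LinearEquiv.finrank_map_eq (le e) L.1]
    exact L.2⟩

theorem grE_sp (e : ι ≃ Fin n) (v : Fr ℝ ι j) : grE e (sp v) = sp (frE e v) := by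
  apply Subtype.ext
  change (Submodule.span ℝ (range v.1)).map (le e).toLinearMap =
    Submodule.span ℝ (range fun b => le e (v.1 b))
  rw [Submodule.map_span, ← range_comp]
  rfl

theorem frE_cont (e : ι ≃ Fin n) : Continuous (frE e : Fr ℝ ι j → Fr ℝ (Fin n) j) := by
  refine Continuous.subtype_mk ?_ _
  refine continuous_pi fun b => continuous_pi fun i => ?_
  have hv : Continuous fun v : Fr ℝ ι j => v.1 := H100.Gr.fr_val_cont
  exact (continuous_apply (e.symm i)).comp ((continuous_apply b).comp hv)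

theorem grE_cont (e : ι ≃ Fin n) : Continuous (grE e : Gr ℝ ι j → Gr ℝ (Fin n) j) := by
  rw [(sp_quot (k := ℝ) (ι := ι) (j := j)).continuous_iff]
  have : (grE e ∘ sp) = fun v : Fr ℝ ι j => sp (frE e v) := by
    funext v
    exact grE_sp e v
  rw [this]
  exact sp_cont.comp (frE_cont e)

theorem grE_le (e : ι ≃ Fin n) {i : ℕ} (L : Gr ℝ ι i) (L' : Gr ℝ ι j) :
    (grE e L).1 ≤ (grE e L').1 ↔ L.1 ≤ L'.1 :=
  Submodule.map_le_map_iff_of_injective (le e).injective _ _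

theorem grE_inj (e : ι ≃ Fin n) : Function.Injective (grE e : Gr ℝ ι j → Gr ℝ (Fin n) j) := by
  intro L L' h
  apply Subtype.ext
  exact le_antisymm ((grE_le e L L').1 (h ▸ le_rfl)) ((grE_le e L' L).1 (h ▸ le_rfl))

end reindex

section sgr

variable {ι : Type} [Fintype ι] [DecidableEq ι] {σ : ℝ →+* ℝ} {J : Matrix ι ι ℝ}

/-- the numbering of the coordinates -/
noncomputable abbrev num (ι : Type) [Fintype ι] : ι ≃ Fin (Fintype.card ι) := Fintype.equivFin ι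

/-- the singular points as projections -/
noncomputable def XX (σ : ℝ →+* ℝ) (J : Matrix ι ι ℝ) :
    C(SGr σ J 1, Matrix (Fin (Fintype.card ι)) (Fin (Fintype.card ι)) ℝ) :=
  ⟨fun x => gp1 (grE (num ι) x.1), gp1_cont.comp ((grE_cont (num ι)).comp SGr.val_cont)⟩

/-- the singular lines as projections -/
noncomputable def QQ (σ : ℝ →+* ℝ) (J : Matrix ι ι ℝ) :
    C(SGr σ J 2, Matrix (Fin (Fintype.card ι)) (Fin (Fintype.card ι)) ℝ) :=
  ⟨fun z => gp (grE (num ι) z.1), gp_cont.comp ((grE_cont (num ι)).comp SGr.val_cont)⟩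

theorem geo (σ : ℝ →+* ℝ) (J : Matrix ι ι ℝ) : Geo (XX σ J) (QQ σ J) where
  injX := fun x y h => Subtype.ext (grE_inj _ (gp1_inj h))
  injP := fun x y h => Subtype.ext (grE_inj _ (gp_inj h))
  pt := fun x => pt_gp1 _
  ln := fun z => ln_gp _

/-- incidence -/
theorem inc_geo (x : SGr σ J 1) (z : SGr σ J 2) :
    QQ σ J z * XX σ J x = XX σ J x ↔ Inc x z :=
  (gp_mul_gp1 _ _).trans (grE_le _ _ _)

variable {n' : Type} [Fintype n'] [DecidableEq n'] {k' : Type} [Field k']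
  {σ' : k' →+* k'} {ε' : k'} {J' : Matrix n' n' k'} [Fact (Continuous σ)]
variable {K : Type*} [NormedAddCommGroup K] [InnerProductSpace ℂ K] [CompleteSpace K]

open Vale.Agent.P092.H714.Cl in
/-- **[0] over `ℝ`, Witt index two, straight**: points to points, lines to lines -/
theorem straight_SGr (hF : Frm σ' ε' J') (Y₀ : SGr σ' J' 2)
    {U : SGr σ' J' 1 → (C(SGr σ J 1, ℂ) →ₗ[ℂ] (K →L[ℂ] K))}
    {V : SGr σ' J' 2 → (C(SGr σ J 2, ℂ) →ₗ[ℂ] (K →L[ℂ] K))}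
    (hU : ∀ c, SP.UL (U c) 1) (hV : ∀ l, SP.UL (V l) 1)
    (i1 : ∀ c l, Inc c l → ∀ f g, Nin (Inc (i := 1) (j := 2)) f g → U c f * V l g = 0)
    (agrU : ∀ c c', c ≠ c' → ∀ ζ, (∀ f, U c f ζ = U c' f ζ) → ζ = 0)
    (agrV : ∀ l l', l ≠ l' → ∀ ζ, (∀ g, V l g ζ = V l' g ζ) → ζ = 0) :
    ∃ (Ec : SGr σ' J' 1 → (C(SGr σ J 1, ℂ) →⋆ₐ[ℂ] (K →L[ℂ] K)))
      (F : SGr σ' J' 2 → (C(SGr σ J 2, ℂ) →⋆ₐ[ℂ] (K →L[ℂ] K))),
      (∀ c f, Ec c f = U c f) ∧ (∀ l g, F l g = V l g) ∧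
      ∀ c l, Inc c l → H796.PL (Inc (i := 1) (j := 2)) (Ec c) (F l) :=
  pl_R (geo σ J) inc_geo hU hV i1 (fun c => H631.P3.two_up hF Y₀ c)
    (fun l => H631.P3.two_dn le_rfl l) agrU agrV

open Vale.Agent.P092.H714.Cl in
/-- **[0] over `ℝ`, Witt index two, flipped**: points to lines, lines to points -/
theorem flipped_SGr (hF : Frm σ' ε' J') (Y₀ : SGr σ' J' 2)
    {U : SGr σ' J' 1 → (C(SGr σ J 2, ℂ) →ₗ[ℂ] (K →L[ℂ] K))}
    {V : SGr σ' J' 2 → (C(SGr σ J 1, ℂ) →ₗ[ℂ] (K →L[ℂ] K))}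
    (hU : ∀ c, SP.UL (U c) 1) (hV : ∀ l, SP.UL (V l) 1)
    (i1 : ∀ c l, Inc c l → ∀ f g, Nin (Inc (i := 1) (j := 2)) f g → V l f * U c g = 0)
    (agrU : ∀ c c', c ≠ c' → ∀ ζ, (∀ f, U c f ζ = U c' f ζ) → ζ = 0)
    (agrV : ∀ l l', l ≠ l' → ∀ ζ, (∀ g, V l g ζ = V l' g ζ) → ζ = 0) :
    ∃ (Ec : SGr σ' J' 1 → (C(SGr σ J 2, ℂ) →⋆ₐ[ℂ] (K →L[ℂ] K)))
      (F : SGr σ' J' 2 → (C(SGr σ J 1, ℂ) →⋆ₐ[ℂ] (K →L[ℂ] K))),
      (∀ c f, Ec c f = U c f) ∧ (∀ l g, F l g = V l g) ∧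
      ∀ c l, Inc c l → H796.PL (flip (Inc (i := 1) (j := 2))) (Ec c) (F l) :=
  pl_R' (geo σ J) inc_geo hU hV i1 (fun c => H631.P3.two_up hF Y₀ c)
    (fun l => H631.P3.two_dn le_rfl l) agrU agrV

end sgr

end Vale.Agent.P092.H828.CLR
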