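import Vale.Agent.P092.H828.CL.ZeroR
import Vale.Agent.P092.H99.CL.One

/-!
P092, TEAM P, track CL over `ℝ` (helper828), row [CL-ZERO-R], last file: `zeroStmt_R`,
`zeroStmt_R'` : `H99.CL.ZeroStmt L`, `H99.CL.ZeroStmt' L` for every `L` whose points and maximal
subspaces are real projective points and lines; `zeroStmt_SGr`, `zeroStmt_SGr'` : the same for the
singular points and lines of any form over `ℝ`, any group acting (`CL.lt` at `s = 0`, `CL.ltO` at
`s = 0`).
-/

set_option linter.all false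

open scoped InnerProductSpace ENNReal
open Filter Topology ContinuousLinearMap MeasureTheory TopologicalSpace

namespace Vale.Agent.P092.H828.CLR

open Vale.Agent.P092.CL
open Vale.Agent.P092.SP (GQ)
open Vale.Agent.P092.H370.Po (SGr Inc)

section real

variable {S P M V₁ V₂ : Type} [Group S] [MeasurableSpace V₁] [MeasurableSpace V₂]
  [TopologicalSpace S] [MulAction S P] [TopologicalSpace P] [CompactSpace P]
  [ContinuousConstSMul S P] [MulAction S M] [TopologicalSpace M] [CompactSpace M]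
  [ContinuousConstSMul S M] [NormedAddCommGroup V₁] [NormedAddCommGroup V₂]
  {L : Lt S P M V₁ V₂}
  {n : ℕ} {X : C(P, Matrix (Fin n) (Fin n) ℝ)} {Q : C(M, Matrix (Fin n) (Fin n) ℝ)}
  [T2Space P] [T2Space M]

/-- **[CL-ZERO-R]**, straight types -/
theorem zeroStmt_R (hG : H616.Syn.Geo X Q) (hJ : ∀ x z, Q z * X x = X x ↔ L.In x z)
    (hQ : GQ L.In) : H99.CL.ZeroStmt L := by
  intro E Γ K _ _ _ _ _ _ 𝒰 ι π lam W Ω m q U11 p11 U12 p12 U21 p21 U22 p22 h e1 e2
  refine straightR hG hJ (fun c => ?_) (fun l => ?_) h e1 e2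
  · obtain ⟨l, l', hne, h1, h2⟩ := hQ.ln2 c
    exact ⟨l, l', h1, h2, hne⟩
  · obtain ⟨c, c', hne, h1, h2⟩ := hQ.pt2 l
    exact ⟨c, c', h1, h2, hne⟩

/-- **[CL-ZERO-R]**, flipped types -/
theorem zeroStmt_R' (hG : H616.Syn.Geo X Q) (hJ : ∀ x z, Q z * X x = X x ↔ L.In x z)
    (hQ : GQ L.In) : H99.CL.ZeroStmt' L := by
  intro E Γ K _ _ _ _ _ _ 𝒰 ι π lam W Ω m q U11 p11 U12 p12 U21 p21 U22 p22 h e1 e2
  refine flippedR hG hJ (fun c => ?_) (fun l => ?_) h e1 e2
  · obtain ⟨l, l', hne, h1, h2⟩ := hQ.ln2 c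
    exact ⟨l, l', h1, h2, hne⟩
  · obtain ⟨c, c', hne, h1, h2⟩ := hQ.pt2 l
    exact ⟨c, c', h1, h2, hne⟩

end real

section sgr

variable {d : Type} [Fintype d] [DecidableEq d] {σ : ℝ →+* ℝ} {J : Matrix d d ℝ}
  [Fact (Continuous σ)]
variable {S V₁ V₂ : Type} [Group S] [MeasurableSpace V₁] [MeasurableSpace V₂]
  [TopologicalSpace S] [MulAction S (SGr σ J 1)] [ContinuousConstSMul S (SGr σ J 1)]
  [MulAction S (SGr σ J 2)] [ContinuousConstSMul S (SGr σ J 2)]
  [NormedAddCommGroup V₁] [NormedAddCommGroup V₂]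
  {L : Lt S (SGr σ J 1) (SGr σ J 2) V₁ V₂}

/-- **[CL-ZERO-R] for the singular points and lines of a form over `ℝ`**, straight types -/
theorem zeroStmt_SGr (hIn : ∀ x l, L.In x l ↔ Inc x l) (hQ : GQ L.In) : H99.CL.ZeroStmt L :=
  zeroStmt_R (geo σ J) (fun x z => (inc_geo x z).trans (hIn x z).symm) hQ

/-- **[CL-ZERO-R] for the singular points and lines of a form over `ℝ`**, flipped types -/
theorem zeroStmt_SGr' (hIn : ∀ x l, L.In x l ↔ Inc x l) (hQ : GQ L.In) : H99.CL.ZeroStmt' L :=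
  zeroStmt_R' (geo σ J) (fun x z => (inc_geo x z).trans (hIn x z).symm) hQ

end sgr

end Vale.Agent.P092.H828.CLR
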