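import Vale.Agent.P092.H631.P3Geo
import Vale.Agent.P092.H283.LocR

/-!
P092, TEAM P, track CL, row [CL-ZERO-R] (helper828), part 1: [0] over `ℝ` for every pair of compact
spaces of real projective points and lines, free of the letters of a leg.

* `pl_loc`: the locality inputs give *-homomorphisms and commutation of incident pairs.
* `pl_R`, `pl_R'`: `Y` a compact space of points (rank one projections of `ℝⁿ`), `Z` a compact space
  of lines (rank two projections); straight and flipped.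
-/

set_option linter.all false

open scoped InnerProductSpace
open ContinuousLinearMap Set

namespace Vale.Agent.P092.H828.CLR

open Vale.Agent.P092.H828.P (UL Loc Loc0 Dis StarP)
open Vale.Agent.P092.H232 (Nin)
open Vale.Agent.P092.H631.P0 (i1_symm ul_of_sp)
open Vale.Agent.P092.H616.Syn (Geo Rel Bdd bdd_of_UL)
open Vale.Agent.P092.H283.LocR (rel_of)

section gen

variable {K : Type*} [NormedAddCommGroup K] [InnerProductSpace ℂ K] [CompleteSpace K]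
variable {C M Y Z : Type*} [TopologicalSpace Y] [CompactSpace Y] [TopologicalSpace Z]
  [CompactSpace Z]

/-- the locality inputs give [0] -/
theorem pl_loc {I : C → M → Prop} {J : Y → Z → Prop}
    {U : C → (C(Y, ℂ) →ₗ[ℂ] (K →L[ℂ] K))} {V : M → (C(Z, ℂ) →ₗ[ℂ] (K →L[ℂ] K))}
    (hU : ∀ c, SP.UL (U c) 1) (hV : ∀ l, SP.UL (V l) 1)
    (i1 : ∀ c l, I c l → ∀ f g, Nin J f g → U c f * V l g = 0)
    (two : ∀ c, ∃ l l', I c l ∧ I c l' ∧ l ≠ l') (two' : ∀ l, ∃ c c', I c l ∧ I c' l ∧ c ≠ c')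
    (agrU : ∀ c c', c ≠ c' → ∀ ζ, (∀ f, U c f ζ = U c' f ζ) → ζ = 0)
    (agrV : ∀ l l', l ≠ l' → ∀ ζ, (∀ g, V l g ζ = V l' g ζ) → ζ = 0)
    (locE : ∀ c l l', I c l → I c l' → Loc (U c) (U c) (V l) (V l'))
    (locF : ∀ c c' l, I c l → I c' l → Loc (V l) (V l) (U c) (U c'))
    (loc0 : ∀ c l, I c l → Dis (U c) (U c) → Loc0 (U c) (U c) (V l)) :
    ∃ (Ec : C → (C(Y, ℂ) →⋆ₐ[ℂ] (K →L[ℂ] K))) (F : M → (C(Z, ℂ) →⋆ₐ[ℂ] (K →L[ℂ] K))),
      (∀ c f, Ec c f = U c f) ∧ (∀ l g, F l g = V l g) ∧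
      ∀ c l, I c l → H796.PL J (Ec c) (F l) := by
  have dE : ∀ c, Dis (U c) (U c) := by
    intro c
    obtain ⟨l, l', hl, hl', hne⟩ := two c
    have hloc := locE c l l' hl hl'
    exact H828.P.dis_of_loc (ul_of_sp (hU c)) one_ne_zero (ul_of_sp (hV l)).star
      (ul_of_sp (hV l')).star hloc hloc (agrV l l' hne)
  have dF : ∀ l, Dis (V l) (V l) := by
    intro l
    obtain ⟨c, c', hc, hc', hne⟩ := two' l
    have hloc := locF c c' l hc hc'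
    exact H828.P.dis_of_loc (ul_of_sp (hV l)) one_ne_zero (ul_of_sp (hU c)).star
      (ul_of_sp (hU c')).star hloc hloc (agrU c c' hne)
  choose Ec hEc using fun c => H631.P3.hom_of (hU c) (dE c)
  choose F hF using fun l => H631.P3.hom_of (hV l) (dF l)
  refine ⟨Ec, F, hEc, hF, fun c l hcl => ⟨fun f g => ?_, fun f g hn => ?_⟩⟩
  · have h0 := loc0 c l hcl (dE c)
    have h := (ul_of_sp (hU c)).comm_of_local one_ne_zero (V l g)
      (fun f f' hd => h0 f f' hd g) f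
    change Ec c f * F l g = F l g * Ec c f
    rw [hEc, hF]
    exact h.symm
  · rw [hEc, hF]
    exact i1 c l hcl f g hn

variable [T2Space Y] [T2Space Z] {n : ℕ} {X : C(Y, Matrix (Fin n) (Fin n) ℝ)}
  {Q : C(Z, Matrix (Fin n) (Fin n) ℝ)}

/-- the relations between an incident pair of letters -/
theorem rel {J : Y → Z → Prop} (hG : Geo X Q) (hJ : ∀ x z, Q z * X x = X x ↔ J x z)
    {E : C(Y, ℂ) →ₗ[ℂ] (K →L[ℂ] K)} {F : C(Z, ℂ) →ₗ[ℂ] (K →L[ℂ] K)} {p q : ℝ} (hE : UL E p)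
    (hF : UL F q) (hI : ∀ f g, Nin J f g → E f * F g = 0) : Rel X Q E F :=
  rel_of hG.pt hG.ln hE hF fun f g hfg => hI f g fun x hx z hz hinc =>
    hfg x hx z hz ((hJ x z).mpr hinc)

/-- **[0] over `ℝ`, straight types** -/
theorem pl_R {I : C → M → Prop} {J : Y → Z → Prop} (hG : Geo X Q)
    (hJ : ∀ x z, Q z * X x = X x ↔ J x z)
    {U : C → (C(Y, ℂ) →ₗ[ℂ] (K →L[ℂ] K))} {V : M → (C(Z, ℂ) →ₗ[ℂ] (K →L[ℂ] K))}
    (hU : ∀ c, SP.UL (U c) 1) (hV : ∀ l, SP.UL (V l) 1)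
    (i1 : ∀ c l, I c l → ∀ f g, Nin J f g → U c f * V l g = 0)
    (two : ∀ c, ∃ l l', I c l ∧ I c l' ∧ l ≠ l') (two' : ∀ l, ∃ c c', I c l ∧ I c' l ∧ c ≠ c')
    (agrU : ∀ c c', c ≠ c' → ∀ ζ, (∀ f, U c f ζ = U c' f ζ) → ζ = 0)
    (agrV : ∀ l l', l ≠ l' → ∀ ζ, (∀ g, V l g ζ = V l' g ζ) → ζ = 0) :
    ∃ (Ec : C → (C(Y, ℂ) →⋆ₐ[ℂ] (K →L[ℂ] K))) (F : M → (C(Z, ℂ) →⋆ₐ[ℂ] (K →L[ℂ] K))),
      (∀ c f, Ec c f = U c f) ∧ (∀ l g, F l g = V l g) ∧
      ∀ c l, I c l → H796.PL J (Ec c) (F l) := by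
  have r : ∀ c l, I c l → Rel X Q (U c) (V l) := fun c l h =>
    rel hG hJ (ul_of_sp (hU c)) (ul_of_sp (hV l)) (i1 c l h)
  have bU : ∀ c, Bdd (U c) := fun c => bdd_of_UL (ul_of_sp (hU c))
  have bV : ∀ l, Bdd (V l) := fun l => bdd_of_UL (ul_of_sp (hV l))
  refine pl_loc hU hV i1 two two' agrU agrV ?_ ?_ ?_
  · intro c l l' hl hl'
    exact H616.Syn.loc hG (bU c) (bU c) (bV l) (bV l') (r c l hl) (r c l' hl') (r c l hl)
      (r c l' hl') ((hV l).one.trans (hV l').one.symm)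
  · intro c c' l hc hc'
    exact H616.Syn.locD hG (bV l) (bV l) (bU c) (bU c') (r c l hc) (r c' l hc') (r c l hc)
      (r c' l hc') ((hU c).one.trans (hU c').one.symm)
  · intro c l hl hd
    exact H616.Syn.loc0 hG (bU c) (bU c) (bV l) (r c l hl) (r c l hl) hd (ul_of_sp (hV l)).one

/-- **[0] over `ℝ`, flipped types** -/
theorem pl_R' {I : C → M → Prop} {J : Y → Z → Prop} (hG : Geo X Q)
    (hJ : ∀ x z, Q z * X x = X x ↔ J x z)
    {U : C → (C(Z, ℂ) →ₗ[ℂ] (K →L[ℂ] K))} {V : M → (C(Y, ℂ) →ₗ[ℂ] (K →L[ℂ] K))}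
    (hU : ∀ c, SP.UL (U c) 1) (hV : ∀ l, SP.UL (V l) 1)
    (i1 : ∀ c l, I c l → ∀ f g, Nin J f g → V l f * U c g = 0)
    (two : ∀ c, ∃ l l', I c l ∧ I c l' ∧ l ≠ l') (two' : ∀ l, ∃ c c', I c l ∧ I c' l ∧ c ≠ c')
    (agrU : ∀ c c', c ≠ c' → ∀ ζ, (∀ f, U c f ζ = U c' f ζ) → ζ = 0)
    (agrV : ∀ l l', l ≠ l' → ∀ ζ, (∀ g, V l g ζ = V l' g ζ) → ζ = 0) :
    ∃ (Ec : C → (C(Z, ℂ) →⋆ₐ[ℂ] (K →L[ℂ] K))) (F : M → (C(Y, ℂ) →⋆ₐ[ℂ] (K →L[ℂ] K))),
      (∀ c f, Ec c f = U c f) ∧ (∀ l g, F l g = V l g) ∧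
      ∀ c l, I c l → H796.PL (flip J) (Ec c) (F l) := by
  have r : ∀ c l, I c l → Rel X Q (V l) (U c) := fun c l h =>
    rel hG hJ (ul_of_sp (hV l)) (ul_of_sp (hU c)) (i1 c l h)
  have bU : ∀ c, Bdd (U c) := fun c => bdd_of_UL (ul_of_sp (hU c))
  have bV : ∀ l, Bdd (V l) := fun l => bdd_of_UL (ul_of_sp (hV l))
  have i1' : ∀ c l, I c l → ∀ f g, Nin (flip J) f g → U c f * V l g = 0 := by
    intro c l hcl g f hn
    exact i1_symm (ul_of_sp (hV l)) (ul_of_sp (hU c)) (i1 c l hcl) f g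
      (fun x hx z hz => hn z hz x hx)
  refine pl_loc (J := flip J) hU hV i1' two two' agrU agrV ?_ ?_ ?_
  · intro c l l' hl hl'
    exact H616.Syn.locD hG (bU c) (bU c) (bV l) (bV l') (r c l hl) (r c l' hl') (r c l hl)
      (r c l' hl') ((hV l).one.trans (hV l').one.symm)
  · intro c c' l hc hc'
    exact H616.Syn.loc hG (bV l) (bV l) (bU c) (bU c') (r c l hc) (r c' l hc') (r c l hc)
      (r c' l hc') ((hU c).one.trans (hU c').one.symm)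
  · intro c l hl hd
    exact H616.Syn.loc0D hG (bU c) (bU c) (bV l) (r c l hl) (r c l hl) hd (ul_of_sp (hV l)).one

end gen

end Vale.Agent.P092.H828.CLR
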