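import Vale.Agent.P092.H828.CL.GeoR
import Vale.Agent.P092.H631.CLZero

/-!
P092, TEAM P, track CL, row [CL-ZERO-R] (helper828), part 3: [0] over `ℝ` in the letters of
`CL/Defs`. `straightR`, `flippedR`: any letters whose points and maximal subspaces are real
projective points and lines (`X`, `Q` as orthogonal projections); `straightS`, `flippedS`: points
`SGr σ J 1`, lines `SGr σ J 2` over `ℝ` with any group acting.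
-/

set_option linter.all false

open scoped InnerProductSpace
open ContinuousLinearMap Set MeasureTheory Filter Topology

namespace Vale.Agent.P092.H828.CLR

open Vale.Agent.P092.RC (Cm Moore)
open Vale.Agent.P092.H232 (Nin)
open Vale.Agent.P092.CL
open Vale.Agent.P092.H616.Syn (Geo)
open Vale.Agent.P092.H370.Po (SGr Inc)
open Vale.Agent.P092.H631.CZ (hfam_of)

section leg

variable {S P M V₁ V₂ : Type} [Group S] [MeasurableSpace V₁] [MeasurableSpace V₂]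
  [TopologicalSpace S] [MulAction S P] [TopologicalSpace P] [CompactSpace P]
  [ContinuousConstSMul S P] [MulAction S M] [TopologicalSpace M] [CompactSpace M]
  [ContinuousConstSMul S M] [NormedAddCommGroup V₁] [NormedAddCommGroup V₂]
  {E Γ K : Type} [Group E] [TopologicalSpace E] [Group Γ] [NormedAddCommGroup K]
  [InnerProductSpace ℂ K] [CompleteSpace K]
  {L : Lt S P M V₁ V₂} {𝒰 : Ultrafilter ℕ} {ι : S →* E}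
  {π : E →* (K →L[ℂ] K)} {lam : Γ →* (K →L[ℂ] K)} {W : Set (K →L[ℂ] K)} {Ω : K}
  {m : Set Γ → (K →L[ℂ] K)} {q : Γ → S}
  {U11 : P → (C(P, ℂ) →ₗ[ℂ] (K →L[ℂ] K))} {p11 : ℝ}
  {U12 : P → (C(M, ℂ) →ₗ[ℂ] (K →L[ℂ] K))} {p12 : ℝ}
  {U21 : M → (C(P, ℂ) →ₗ[ℂ] (K →L[ℂ] K))} {p21 : ℝ}
  {U22 : M → (C(M, ℂ) →ₗ[ℂ] (K →L[ℂ] K))} {p22 : ℝ}
  {n : ℕ} {X : C(P, Matrix (Fin n) (Fin n) ℝ)} {Q : C(M, Matrix (Fin n) (Fin n) ℝ)}

/-- **[CL-ZERO-R], straight types** -/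
theorem straightR [T2Space P] [T2Space M] (hG : H616.Syn.Geo X Q)
    (hJ : ∀ x z, Q z * X x = X x ↔ L.In x z)
    (two : ∀ c, ∃ l l', L.In c l ∧ L.In c l' ∧ l ≠ l')
    (two' : ∀ l, ∃ c c', L.In c l ∧ L.In c' l ∧ c ≠ c')
    (h : LegP L 𝒰 ι π lam W Ω m q U11 p11 U12 p12 U21 p21 U22 p22)
    (h1 : p11 = 1) (h2 : p22 = 1) :
    ∃ (Ec : P → (C(P, ℂ) →⋆ₐ[ℂ] (K →L[ℂ] K))) (F : M → (C(M, ℂ) →⋆ₐ[ℂ] (K →L[ℂ] K))),
      (∀ c f, Ec c f = U11 c f) ∧ (∀ l g, F l g = U22 l g) ∧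
      LegS L 𝒰 ι π lam W Ω m q Ec F := by
  subst h1; subst h2
  obtain ⟨Ec, F, hE, hF, hpl⟩ := pl_R (I := L.In) (J := L.In) hG hJ h.u11.ul h.u22.ul
    h.i11 two two' (h.u11.agr one_ne_zero) (h.u22.agr one_ne_zero)
  exact ⟨Ec, F, hE, hF, ⟨h.base, hfam_of h.u11 hE, hfam_of h.u22 hF, hpl⟩⟩

/-- **[CL-ZERO-R], flipped types** -/
theorem flippedR [T2Space P] [T2Space M] (hG : H616.Syn.Geo X Q)
    (hJ : ∀ x z, Q z * X x = X x ↔ L.In x z)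
    (two : ∀ c, ∃ l l', L.In c l ∧ L.In c l' ∧ l ≠ l')
    (two' : ∀ l, ∃ c c', L.In c l ∧ L.In c' l ∧ c ≠ c')
    (h : LegP L 𝒰 ι π lam W Ω m q U11 p11 U12 p12 U21 p21 U22 p22)
    (h1 : p12 = 1) (h2 : p21 = 1) :
    ∃ (Ec : P → (C(M, ℂ) →⋆ₐ[ℂ] (K →L[ℂ] K))) (F : M → (C(P, ℂ) →⋆ₐ[ℂ] (K →L[ℂ] K))),
      (∀ c f, Ec c f = U12 c f) ∧ (∀ l g, F l g = U21 l g) ∧
      LegF L 𝒰 ι π lam W Ω m q Ec F := by
  subst h1; subst h2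
  obtain ⟨Ec, F, hE, hF, hpl⟩ := pl_R' (I := L.In) (J := L.In) hG hJ h.u12.ul h.u21.ul
    h.i12 two two' (h.u12.agr one_ne_zero) (h.u21.agr one_ne_zero)
  exact ⟨Ec, F, hE, hF, ⟨h.base, hfam_of h.u12 hE, hfam_of h.u21 hF, hpl⟩⟩

end leg

section sgr

variable {d : Type} [Fintype d] [DecidableEq d] {σ : ℝ →+* ℝ} {J : Matrix d d ℝ}
  [Fact (Continuous σ)]
variable {S V₁ V₂ : Type} [Group S] [MeasurableSpace V₁] [MeasurableSpace V₂]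
  [TopologicalSpace S] [MulAction S (SGr σ J 1)] [ContinuousConstSMul S (SGr σ J 1)]
  [MulAction S (SGr σ J 2)] [ContinuousConstSMul S (SGr σ J 2)]
  [NormedAddCommGroup V₁] [NormedAddCommGroup V₂]
  {E Γ K : Type} [Group E] [TopologicalSpace E] [Group Γ] [NormedAddCommGroup K]
  [InnerProductSpace ℂ K] [CompleteSpace K]
  {L : Lt S (SGr σ J 1) (SGr σ J 2) V₁ V₂} {𝒰 : Ultrafilter ℕ} {ι : S →* E}
  {π : E →* (K →L[ℂ] K)} {lam : Γ →* (K →L[ℂ] K)} {W : Set (K →L[ℂ] K)} {Ω : K}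
  {m : Set Γ → (K →L[ℂ] K)} {q : Γ → S}
  {U11 : SGr σ J 1 → (C(SGr σ J 1, ℂ) →ₗ[ℂ] (K →L[ℂ] K))} {p11 : ℝ}
  {U12 : SGr σ J 1 → (C(SGr σ J 2, ℂ) →ₗ[ℂ] (K →L[ℂ] K))} {p12 : ℝ}
  {U21 : SGr σ J 2 → (C(SGr σ J 1, ℂ) →ₗ[ℂ] (K →L[ℂ] K))} {p21 : ℝ}
  {U22 : SGr σ J 2 → (C(SGr σ J 2, ℂ) →ₗ[ℂ] (K →L[ℂ] K))} {p22 : ℝ}

/-- **[CL-ZERO-R] for the singular points and lines over `ℝ`, straight types** -/
theorem straightS (hIn : ∀ x l, L.In x l ↔ Inc x l)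
    (two : ∀ c : SGr σ J 1, ∃ l l' : SGr σ J 2, Inc c l ∧ Inc c l' ∧ l ≠ l')
    (h : LegP L 𝒰 ι π lam W Ω m q U11 p11 U12 p12 U21 p21 U22 p22)
    (h1 : p11 = 1) (h2 : p22 = 1) :
    ∃ (Ec : SGr σ J 1 → (C(SGr σ J 1, ℂ) →⋆ₐ[ℂ] (K →L[ℂ] K)))
      (F : SGr σ J 2 → (C(SGr σ J 2, ℂ) →⋆ₐ[ℂ] (K →L[ℂ] K))),
      (∀ c f, Ec c f = U11 c f) ∧ (∀ l g, F l g = U22 l g) ∧
      LegS L 𝒰 ι π lam W Ω m q Ec F := by
  refine straightR (geo σ J) (fun x z => (inc_geo x z).trans (hIn x z).symm) ?_ ?_ h h1 h2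
  · intro c
    obtain ⟨l, l', a, b, e⟩ := two c
    exact ⟨l, l', (hIn _ _).2 a, (hIn _ _).2 b, e⟩
  · intro l
    obtain ⟨c, c', a, b, e⟩ := H631.P3.two_dn le_rfl l
    exact ⟨c, c', (hIn _ _).2 a, (hIn _ _).2 b, e⟩

/-- **[CL-ZERO-R] for the singular points and lines over `ℝ`, flipped types** -/
theorem flippedS (hIn : ∀ x l, L.In x l ↔ Inc x l)
    (two : ∀ c : SGr σ J 1, ∃ l l' : SGr σ J 2, Inc c l ∧ Inc c l' ∧ l ≠ l')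
    (h : LegP L 𝒰 ι π lam W Ω m q U11 p11 U12 p12 U21 p21 U22 p22)
    (h1 : p12 = 1) (h2 : p21 = 1) :
    ∃ (Ec : SGr σ J 1 → (C(SGr σ J 2, ℂ) →⋆ₐ[ℂ] (K →L[ℂ] K)))
      (F : SGr σ J 2 → (C(SGr σ J 1, ℂ) →⋆ₐ[ℂ] (K →L[ℂ] K))),
      (∀ c f, Ec c f = U12 c f) ∧ (∀ l g, F l g = U21 l g) ∧
      LegF L 𝒰 ι π lam W Ω m q Ec F := by
  refine flippedR (geo σ J) (fun x z => (inc_geo x z).trans (hIn x z).symm) ?_ ?_ h h1 h2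
  · intro c
    obtain ⟨l, l', a, b, e⟩ := two c
    exact ⟨l, l', (hIn _ _).2 a, (hIn _ _).2 b, e⟩
  · intro l
    obtain ⟨c, c', a, b, e⟩ := H631.P3.two_dn le_rfl l
    exact ⟨c, c', (hIn _ _).2 a, (hIn _ _).2 b, e⟩

end sgr

end Vale.Agent.P092.H828.CLR
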